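import Vale.Agent.P098.Cert6.Root
import Vale.Agent.P098.Cert6.Tree.Neg0
import Vale.Agent.P098.Cert6.Tree.Neg1
import Vale.Agent.P098.Cert6.Tree.Neg2
import Vale.Agent.P098.Cert6.Tree.Neg3
import Vale.Agent.P098.Cert6.Tree.Neg4
import Vale.Agent.P098.Cert6.Tree.Neg5
import Vale.Agent.P098.Cert6.Tree.Neg6
import Vale.Agent.P098.Cert6.Tree.Neg7

/-!
P098, dimension six: the tree at the sign `-1` glued from its parts.
-/

namespace Vale.Agent.P098.Cert6.TreeNeg

open Check6 Kron

lemma root_eq : eqList (rootSt par6 (-1) rootFaces).Ys root.Ys = true := by decide +kernel

/-- The root of the chart is good. -/
theorem good : Good (rootCfg par6) (rootSt par6 (-1) rootFaces) :=
  good_of_literal root_eq
    (good_reach (stepOK6 0)
     (good_reach (stepOK6 1)
      (good_reach (stepOK6 2)
       (good_reach (stepOK6 2)
        (good_reach (stepOK6 0)
         (good_reach (stepOK6 3)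
          (good_reach (stepOK6 2)
           (good_reach (stepOK6 1)
            (good_reach (stepOK6 3)
             part0
             part1)
            (good_reach (stepOK6 3)
             (good_reach (stepOK6 2)
              (good_reach (stepOK6 3)
               (good_reach (stepOK6 1)
                part2
                part3)
               part4)
              part5)
             part6))
           part7)
          (good_reach (stepOK6 1)
           part8
           (good_reach (stepOK6 2)
            part9
            part10)))
         (good_reach (stepOK6 3)
          (good_reach (stepOK6 2)
           (good_reach (stepOK6 1)
            part11
            part12)
           (good_reach (stepOK6 3)
            (good_reach (stepOK6 2)
             part13
             (good_reach (stepOK6 1)
              part14
              part15))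
            part16))
          (good_reach (stepOK6 2)
           part17
           (good_reach (stepOK6 3)
            part18
            part19))))
        (good_reach (stepOK6 0)
         (good_reach (stepOK6 2)
          (good_reach (stepOK6 3)
           (good_reach (stepOK6 3)
            (good_reach (stepOK6 1)
             part20
             (good_reach (stepOK6 3)
              part21
              (good_reach (stepOK6 0)
               part22
               part23)))
            (good_reach (stepOK6 1)
             part24
             (good_reach (stepOK6 0)
              part25
              part26)))
           part27)
          (good_reach (stepOK6 3)
           (good_reach (stepOK6 2)
            (good_reach (stepOK6 3)
             (good_reach (stepOK6 3)
              part28
              part29)
             part30)
            part31)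
           part32))
         (good_reach (stepOK6 2)
          (good_reach (stepOK6 3)
           (good_reach (stepOK6 3)
            (good_reach (stepOK6 1)
             (good_reach (stepOK6 2)
              (good_reach (stepOK6 0)
               part33
               (good_reach (stepOK6 1)
                (good_reach (stepOK6 1)
                 (good_reach (stepOK6 3)
                  part34
                  part35)
                 part36)
                part37))
              (good_reach (stepOK6 0)
               (good_reach (stepOK6 3)
                part38
                (good_reach (stepOK6 1)
                 part39
                 part40))
               (good_reach (stepOK6 3)
                (good_reach (stepOK6 2)
                 part41
                 part42)
                (good_reach (stepOK6 2)
                 part43
                 (good_reach (stepOK6 1)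
                  part44
                  part45)))))
             (good_reach (stepOK6 2)
              part46
              (good_reach (stepOK6 3)
               part47
               (good_reach (stepOK6 0)
                part48
                part49))))
            (good_reach (stepOK6 0)
             (good_reach (stepOK6 2)
              part50
              (good_reach (stepOK6 1)
               (good_reach (stepOK6 3)
                part51
                part52)
               (good_reach (stepOK6 3)
                part53
                part54)))
             (good_reach (stepOK6 1)
              (good_reach (stepOK6 2)
               part55
               (good_reach (stepOK6 3)
                (good_reach (stepOK6 1)
                 part56
                 (good_reach (stepOK6 2)
                  part57
                  part58))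
                part59))
              (good_reach (stepOK6 2)
               part60
               (good_reach (stepOK6 3)
                (good_reach (stepOK6 2)
                 part61
                 part62)
                part63)))))
           (good_reach (stepOK6 2)
            (good_reach (stepOK6 3)
             (good_reach (stepOK6 1)
              part64
              part65)
             part66)
            (good_reach (stepOK6 3)
             (good_reach (stepOK6 0)
              part67
              part68)
             part69)))
          (good_reach (stepOK6 3)
           (good_reach (stepOK6 2)
            (good_reach (stepOK6 3)
             (good_reach (stepOK6 0)
              (good_reach (stepOK6 3)
               part70
               part71)
              (good_reach (stepOK6 1)
               (good_reach (stepOK6 3)
                (good_reach (stepOK6 3)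
                 part72
                 part73)
                (good_reach (stepOK6 2)
                 (good_reach (stepOK6 1)
                  part74
                  part75)
                 part76))
               (good_reach (stepOK6 3)
                part77
                (good_reach (stepOK6 2)
                 part78
                 part79))))
             (good_reach (stepOK6 1)
              (good_reach (stepOK6 0)
               part80
               (good_reach (stepOK6 3)
                part81
                part82))
              (good_reach (stepOK6 3)
               part83
               part84)))
            (good_reach (stepOK6 3)
             (good_reach (stepOK6 1)
              part85
              part86)
             part87))
           (good_reach (stepOK6 2)
            (good_reach (stepOK6 3)
             part88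
             part89)
            part90)))))
       (good_reach (stepOK6 2)
        (good_reach (stepOK6 3)
         (good_reach (stepOK6 2)
          (good_reach (stepOK6 3)
           (good_reach (stepOK6 0)
            part91
            (good_reach (stepOK6 2)
             part92
             part93))
           part94)
          (good_reach (stepOK6 3)
           part95
           part96))
         (good_reach (stepOK6 2)
          (good_reach (stepOK6 0)
           part97
           (good_reach (stepOK6 1)
            (good_reach (stepOK6 0)
             part98
             (good_reach (stepOK6 3)
              part99
              part100))
            part101))
          part102))
        (good_reach (stepOK6 0)
         (good_reach (stepOK6 1)
          part103
          (good_reach (stepOK6 2)
           part104
           (good_reach (stepOK6 3)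
            (good_reach (stepOK6 3)
             part105
             part106)
            part107)))
         (good_reach (stepOK6 2)
          (good_reach (stepOK6 3)
           (good_reach (stepOK6 3)
            part108
            part109)
           part110)
          (good_reach (stepOK6 3)
           (good_reach (stepOK6 3)
            (good_reach (stepOK6 1)
             part111
             part112)
            part113)
           part114)))))
      (good_reach (stepOK6 2)
       (good_reach (stepOK6 0)
        (good_reach (stepOK6 2)
         (good_reach (stepOK6 3)
          (good_reach (stepOK6 1)
           (good_reach (stepOK6 2)
            (good_reach (stepOK6 3)
             (good_reach (stepOK6 0)
              (good_reach (stepOK6 2)
               part115
               part116)
              part117)
             part118)
            (good_reach (stepOK6 3)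
             part119
             part120))
           (good_reach (stepOK6 2)
            (good_reach (stepOK6 3)
             (good_reach (stepOK6 1)
              part121
              (good_reach (stepOK6 3)
               (good_reach (stepOK6 2)
                part122
                part123)
               part124))
             part125)
            (good_reach (stepOK6 3)
             (good_reach (stepOK6 0)
              (good_reach (stepOK6 2)
               part126
               (good_reach (stepOK6 1)
                part127
                (good_reach (stepOK6 1)
                 part128
                 (good_reach (stepOK6 3)
                  part129
                  part130))))
              part131)
             (good_reach (stepOK6 1)
              part132
              part133))))
          (good_reach (stepOK6 1)
           (good_reach (stepOK6 0)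
            (good_reach (stepOK6 2)
             part134
             (good_reach (stepOK6 3)
              (good_reach (stepOK6 1)
               part135
               part136)
              part137))
            (good_reach (stepOK6 3)
             (good_reach (stepOK6 2)
              part138
              part139)
             (good_reach (stepOK6 2)
              part140
              (good_reach (stepOK6 1)
               part141
               part142))))
           (good_reach (stepOK6 2)
            part143
            (good_reach (stepOK6 1)
             (good_reach (stepOK6 0)
              (good_reach (stepOK6 3)
               part144
               part145)
              part146)
             part147))))
         (good_reach (stepOK6 2)
          (good_reach (stepOK6 1)
           (good_reach (stepOK6 3)
            (good_reach (stepOK6 3)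
             (good_reach (stepOK6 0)
              (good_reach (stepOK6 3)
               part148
               (good_reach (stepOK6 2)
                part149
                part150))
              (good_reach (stepOK6 2)
               part151
               (good_reach (stepOK6 3)
                part152
                (good_reach (stepOK6 1)
                 part153
                 part154))))
             (good_reach (stepOK6 0)
              (good_reach (stepOK6 2)
               part155
               part156)
              (good_reach (stepOK6 3)
               (good_reach (stepOK6 1)
                part157
                (good_reach (stepOK6 2)
                 part158
                 part159))
               (good_reach (stepOK6 2)
                part160
                part161))))
            (good_reach (stepOK6 2)
             (good_reach (stepOK6 3)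
              (good_reach (stepOK6 0)
               part162
               (good_reach (stepOK6 1)
                part163
                part164))
              part165)
             part166))
           (good_reach (stepOK6 3)
            (good_reach (stepOK6 3)
             (good_reach (stepOK6 0)
              (good_reach (stepOK6 1)
               (good_reach (stepOK6 2)
                part167
                part168)
               (good_reach (stepOK6 2)
                (good_reach (stepOK6 1)
                 part169
                 (good_reach (stepOK6 3)
                  part170
                  part171))
                (good_reach (stepOK6 3)
                 part172
                 part173)))
              (good_reach (stepOK6 1)
               (good_reach (stepOK6 2)
                part174
                (good_reach (stepOK6 3)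
                 part175
                 part176))
               (good_reach (stepOK6 2)
                part177
                (good_reach (stepOK6 1)
                 part178
                 (good_reach (stepOK6 3)
                  part179
                  part180)))))
             (good_reach (stepOK6 0)
              (good_reach (stepOK6 1)
               (good_reach (stepOK6 2)
                part181
                part182)
               (good_reach (stepOK6 2)
                part183
                part184))
              (good_reach (stepOK6 1)
               (good_reach (stepOK6 2)
                part185
                (good_reach (stepOK6 3)
                 part186
                 part187))
               (good_reach (stepOK6 2)
                part188
                (good_reach (stepOK6 1)
                 part189
                 (good_reach (stepOK6 3)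
                  part190
                  part191))))))
            (good_reach (stepOK6 1)
             (good_reach (stepOK6 2)
              (good_reach (stepOK6 0)
               part192
               part193)
              part194)
             (good_reach (stepOK6 2)
              (good_reach (stepOK6 3)
               part195
               part196)
              (good_reach (stepOK6 3)
               (good_reach (stepOK6 1)
                part197
                (good_reach (stepOK6 0)
                 part198
                 (good_reach (stepOK6 2)
                  part199
                  part200)))
               part201)))))
          (good_reach (stepOK6 1)
           (good_reach (stepOK6 3)
            part202
            part203)
           (good_reach (stepOK6 3)
            (good_reach (stepOK6 2)
             (good_reach (stepOK6 3)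
              (good_reach (stepOK6 1)
               part204
               (good_reach (stepOK6 2)
                (good_reach (stepOK6 3)
                 part205
                 part206)
                part207))
              (good_reach (stepOK6 1)
               part208
               part209))
             (good_reach (stepOK6 3)
              part210
              part211))
            (good_reach (stepOK6 1)
             part212
             (good_reach (stepOK6 2)
              (good_reach (stepOK6 3)
               (good_reach (stepOK6 1)
                part213
                part214)
               (good_reach (stepOK6 1)
                part215
                part216))
              part217))))))
        (good_reach (stepOK6 2)
         (good_reach (stepOK6 3)
          (good_reach (stepOK6 2)
           (good_reach (stepOK6 3)
            (good_reach (stepOK6 3)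
             (good_reach (stepOK6 1)
              part218
              part219)
             part220)
            part221)
           part222)
          (good_reach (stepOK6 1)
           (good_reach (stepOK6 2)
            part223
            (good_reach (stepOK6 3)
             part224
             part225))
           part226))
         (good_reach (stepOK6 2)
          (good_reach (stepOK6 3)
           (good_reach (stepOK6 1)
            (good_reach (stepOK6 3)
             (good_reach (stepOK6 2)
              part227
              (good_reach (stepOK6 3)
               (good_reach (stepOK6 2)
                part228
                (good_reach (stepOK6 0)
                 part229
                 part230))
               (good_reach (stepOK6 0)
                (good_reach (stepOK6 1)
                 part231
                 (good_reach (stepOK6 2)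
                  part232
                  (good_reach (stepOK6 1)
                   part233
                   part234)))
                (good_reach (stepOK6 1)
                 part235
                 (good_reach (stepOK6 2)
                  part236
                  (good_reach (stepOK6 1)
                   part237
                   part238))))))
             (good_reach (stepOK6 0)
              (good_reach (stepOK6 1)
               (good_reach (stepOK6 2)
                part239
                (good_reach (stepOK6 3)
                 part240
                 part241))
               (good_reach (stepOK6 2)
                part242
                (good_reach (stepOK6 3)
                 (good_reach (stepOK6 2)
                  part243
                  (good_reach (stepOK6 1)
                   part244
                   part245))
                 (good_reach (stepOK6 2)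
                  part246
                  part247))))
              (good_reach (stepOK6 2)
               part248
               (good_reach (stepOK6 1)
                (good_reach (stepOK6 3)
                 (good_reach (stepOK6 2)
                  part249
                  (good_reach (stepOK6 1)
                   part250
                   part251))
                 (good_reach (stepOK6 2)
                  part252
                  part253))
                (good_reach (stepOK6 3)
                 (good_reach (stepOK6 2)
                  part254
                  (good_reach (stepOK6 1)
                   part255
                   part256))
                 (good_reach (stepOK6 2)
                  part257
                  (good_reach (stepOK6 1)
                   part258
                   part259)))))))
            (good_reach (stepOK6 3)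
             (good_reach (stepOK6 2)
              part260
              (good_reach (stepOK6 1)
               (good_reach (stepOK6 3)
                part261
                (good_reach (stepOK6 2)
                 part262
                 (good_reach (stepOK6 0)
                  part263
                  part264)))
               part265))
             (good_reach (stepOK6 1)
              (good_reach (stepOK6 2)
               part266
               (good_reach (stepOK6 0)
                (good_reach (stepOK6 3)
                 (good_reach (stepOK6 2)
                  part267
                  part268)
                 (good_reach (stepOK6 1)
                  part269
                  part270))
                (good_reach (stepOK6 2)
                 part271
                 (good_reach (stepOK6 3)
                  part272
                  part273))))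
              (good_reach (stepOK6 2)
               part274
               (good_reach (stepOK6 1)
                part275
                part276)))))
           (good_reach (stepOK6 1)
            (good_reach (stepOK6 3)
             (good_reach (stepOK6 0)
              (good_reach (stepOK6 2)
               (good_reach (stepOK6 1)
                part277
                part278)
               (good_reach (stepOK6 1)
                part279
                (good_reach (stepOK6 3)
                 (good_reach (stepOK6 2)
                  part280
                  part281)
                 part282)))
              (good_reach (stepOK6 2)
               part283
               (good_reach (stepOK6 1)
                (good_reach (stepOK6 3)
                 part284
                 part285)
                (good_reach (stepOK6 3)
                 (good_reach (stepOK6 2)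
                  part286
                  (good_reach (stepOK6 1)
                   part287
                   part288))
                 (good_reach (stepOK6 2)
                  part289
                  part290)))))
             (good_reach (stepOK6 0)
              (good_reach (stepOK6 2)
               part291
               part292)
              (good_reach (stepOK6 2)
               part293
               (good_reach (stepOK6 1)
                part294
                (good_reach (stepOK6 3)
                 (good_reach (stepOK6 2)
                  part295
                  part296)
                 part297)))))
            (good_reach (stepOK6 1)
             (good_reach (stepOK6 3)
              (good_reach (stepOK6 2)
               part298
               (good_reach (stepOK6 0)
                (good_reach (stepOK6 3)
                 (good_reach (stepOK6 1)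
                  part299
                  part300)
                 part301)
                (good_reach (stepOK6 3)
                 part302
                 (good_reach (stepOK6 1)
                  part303
                  part304))))
              (good_reach (stepOK6 2)
               part305
               (good_reach (stepOK6 0)
                part306
                (good_reach (stepOK6 2)
                 part307
                 (good_reach (stepOK6 1)
                  part308
                  part309)))))
             (good_reach (stepOK6 2)
              part310
              (good_reach (stepOK6 3)
               part311
               part312)))))
          (good_reach (stepOK6 3)
           (good_reach (stepOK6 1)
            (good_reach (stepOK6 2)
             (good_reach (stepOK6 3)
              (good_reach (stepOK6 0)
               (good_reach (stepOK6 2)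
                (good_reach (stepOK6 1)
                 part313
                 (good_reach (stepOK6 3)
                  part314
                  part315))
                part316)
               (good_reach (stepOK6 2)
                (good_reach (stepOK6 3)
                 (good_reach (stepOK6 1)
                  part317
                  (good_reach (stepOK6 3)
                   part318
                   part319))
                 (good_reach (stepOK6 1)
                  (good_reach (stepOK6 2)
                   part320
                   part321)
                  (good_reach (stepOK6 1)
                   (good_reach (stepOK6 0)
                    part322
                    part323)
                   part324)))
                (good_reach (stepOK6 1)
                 part325
                 (good_reach (stepOK6 3)
                  part326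
                  part327))))
              (good_reach (stepOK6 0)
               part328
               (good_reach (stepOK6 1)
                (good_reach (stepOK6 3)
                 part329
                 part330)
                (good_reach (stepOK6 3)
                 (good_reach (stepOK6 2)
                  (good_reach (stepOK6 1)
                   part331
                   part332)
                  part333)
                 part334))))
             part335)
            (good_reach (stepOK6 2)
             (good_reach (stepOK6 3)
              (good_reach (stepOK6 1)
               (good_reach (stepOK6 0)
                (good_reach (stepOK6 2)
                 (good_reach (stepOK6 3)
                  part336
                  part337)
                 part338)
                (good_reach (stepOK6 2)
                 (good_reach (stepOK6 3)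
                  part339
                  part340)
                 (good_reach (stepOK6 3)
                  part341
                  part342)))
               (good_reach (stepOK6 2)
                (good_reach (stepOK6 1)
                 part343
                 part344)
                part345))
              (good_reach (stepOK6 1)
               (good_reach (stepOK6 3)
                (good_reach (stepOK6 2)
                 (good_reach (stepOK6 0)
                  part346
                  part347)
                 part348)
                part349)
               (good_reach (stepOK6 1)
                part350
                part351)))
             (good_reach (stepOK6 3)
              part352
              part353)))
           (good_reach (stepOK6 1)
            (good_reach (stepOK6 2)
             (good_reach (stepOK6 3)
              (good_reach (stepOK6 1)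
               part354
               (good_reach (stepOK6 0)
                part355
                (good_reach (stepOK6 2)
                 (good_reach (stepOK6 3)
                  part356
                  part357)
                 part358)))
              (good_reach (stepOK6 1)
               part359
               (good_reach (stepOK6 0)
                part360
                part361)))
             part362)
            (good_reach (stepOK6 2)
             (good_reach (stepOK6 1)
              (good_reach (stepOK6 3)
               (good_reach (stepOK6 3)
                part363
                part364)
               (good_reach (stepOK6 0)
                part365
                (good_reach (stepOK6 2)
                 (good_reach (stepOK6 1)
                  part366
                  part367)
                 part368)))
              (good_reach (stepOK6 3)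
               part369
               part370))
             part371))))))
       (good_reach (stepOK6 2)
        (good_reach (stepOK6 1)
         part372
         (good_reach (stepOK6 2)
          (good_reach (stepOK6 3)
           (good_reach (stepOK6 2)
            (good_reach (stepOK6 3)
             (good_reach (stepOK6 1)
              part373
              (good_reach (stepOK6 2)
               part374
               part375))
             (good_reach (stepOK6 1)
              part376
              (good_reach (stepOK6 1)
               part377
               (good_reach (stepOK6 2)
                part378
                part379))))
            (good_reach (stepOK6 3)
             part380
             part381))
           (good_reach (stepOK6 2)
            part382
            part383))
          (good_reach (stepOK6 3)
           part384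
           part385)))
        (good_reach (stepOK6 1)
         (good_reach (stepOK6 2)
          part386
          (good_reach (stepOK6 3)
           (good_reach (stepOK6 3)
            (good_reach (stepOK6 2)
             part387
             (good_reach (stepOK6 1)
              part388
              part389))
            part390)
           part391))
         (good_reach (stepOK6 2)
          (good_reach (stepOK6 3)
           (good_reach (stepOK6 3)
            part392
            part393)
           part394)
          (good_reach (stepOK6 3)
           (good_reach (stepOK6 3)
            (good_reach (stepOK6 2)
             (good_reach (stepOK6 1)
              part395
              part396)
             (good_reach (stepOK6 1)
              part397
              part398))
            part399)
           part400))))))
     (good_reach (stepOK6 0)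
      (good_reach (stepOK6 2)
       (good_reach (stepOK6 2)
        (good_reach (stepOK6 1)
         (good_reach (stepOK6 2)
          part401
          part402)
         (good_reach (stepOK6 3)
          (good_reach (stepOK6 2)
           part403
           part404)
          part405))
        (good_reach (stepOK6 1)
         (good_reach (stepOK6 2)
          (good_reach (stepOK6 3)
           (good_reach (stepOK6 3)
            (good_reach (stepOK6 2)
             part406
             (good_reach (stepOK6 3)
              part407
              (good_reach (stepOK6 0)
               (good_reach (stepOK6 1)
                part408
                part409)
               part410)))
            (good_reach (stepOK6 2)
             part411
             (good_reach (stepOK6 0)
              (good_reach (stepOK6 1)
               part412
               (good_reach (stepOK6 2)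
                part413
                (good_reach (stepOK6 3)
                 part414
                 part415)))
              part416)))
           (good_reach (stepOK6 3)
            part417
            part418))
          (good_reach (stepOK6 3)
           (good_reach (stepOK6 0)
            (good_reach (stepOK6 3)
             (good_reach (stepOK6 2)
              (good_reach (stepOK6 1)
               (good_reach (stepOK6 3)
                part419
                part420)
               (good_reach (stepOK6 3)
                part421
                (good_reach (stepOK6 2)
                 (good_reach (stepOK6 1)
                  part422
                  (good_reach (stepOK6 0)
                   part423
                   (good_reach (stepOK6 3)
                    part424
                    part425)))
                 (good_reach (stepOK6 1)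
                  part426
                  part427))))
              part428)
             (good_reach (stepOK6 1)
              (good_reach (stepOK6 2)
               part429
               part430)
              (good_reach (stepOK6 2)
               (good_reach (stepOK6 1)
                (good_reach (stepOK6 3)
                 (good_reach (stepOK6 2)
                  part431
                  part432)
                 part433)
                (good_reach (stepOK6 3)
                 (good_reach (stepOK6 2)
                  (good_reach (stepOK6 0)
                   part434
                   part435)
                  part436)
                 part437))
               part438)))
            (good_reach (stepOK6 3)
             (good_reach (stepOK6 2)
              (good_reach (stepOK6 3)
               part439
               (good_reach (stepOK6 1)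
                (good_reach (stepOK6 2)
                 part440
                 part441)
                (good_reach (stepOK6 2)
                 (good_reach (stepOK6 1)
                  part442
                  part443)
                 (good_reach (stepOK6 1)
                  part444
                  part445))))
              (good_reach (stepOK6 3)
               part446
               part447))
             (good_reach (stepOK6 2)
              (good_reach (stepOK6 1)
               (good_reach (stepOK6 3)
                part448
                part449)
               (good_reach (stepOK6 3)
                (good_reach (stepOK6 2)
                 (good_reach (stepOK6 1)
                  part450
                  part451)
                 (good_reach (stepOK6 1)
                  part452
                  part453))
                part454))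
              part455)))
           (good_reach (stepOK6 1)
            part456
            part457)))
         (good_reach (stepOK6 2)
          (good_reach (stepOK6 3)
           (good_reach (stepOK6 2)
            part458
            (good_reach (stepOK6 3)
             (good_reach (stepOK6 1)
              (good_reach (stepOK6 3)
               part459
               part460)
              part461)
             (good_reach (stepOK6 1)
              (good_reach (stepOK6 1)
               (good_reach (stepOK6 0)
                (good_reach (stepOK6 2)
                 part462
                 (good_reach (stepOK6 3)
                  part463
                  part464))
                part465)
               part466)
              part467)))
           (good_reach (stepOK6 1)
            (good_reach (stepOK6 2)
             part468
             (good_reach (stepOK6 3)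
              part469
              part470))
            part471))
          (good_reach (stepOK6 3)
           (good_reach (stepOK6 3)
            (good_reach (stepOK6 2)
             (good_reach (stepOK6 1)
              (good_reach (stepOK6 3)
               (good_reach (stepOK6 2)
                part472
                part473)
               (good_reach (stepOK6 0)
                (good_reach (stepOK6 1)
                 (good_reach (stepOK6 2)
                  (good_reach (stepOK6 0)
                   (good_reach (stepOK6 3)
                    part474
                    part475)
                   part476)
                  part477)
                 (good_reach (stepOK6 2)
                  part478
                  part479))
                part480))
              part481)
             (good_reach (stepOK6 1)
              (good_reach (stepOK6 3)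
               (good_reach (stepOK6 2)
                part482
                part483)
               part484)
              part485))
            (good_reach (stepOK6 1)
             (good_reach (stepOK6 2)
              (good_reach (stepOK6 0)
               (good_reach (stepOK6 1)
                (good_reach (stepOK6 3)
                 (good_reach (stepOK6 2)
                  (good_reach (stepOK6 0)
                   (good_reach (stepOK6 1)
                    part486
                    part487)
                   part488)
                  part489)
                 part490)
                (good_reach (stepOK6 3)
                 (good_reach (stepOK6 2)
                  part491
                  part492)
                 part493))
               (good_reach (stepOK6 3)
                part494
                part495))
              (good_reach (stepOK6 2)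
               part496
               part497))
             (good_reach (stepOK6 2)
              (good_reach (stepOK6 1)
               part498
               part499)
              part500)))
           (good_reach (stepOK6 1)
            (good_reach (stepOK6 2)
             (good_reach (stepOK6 3)
              (good_reach (stepOK6 0)
               part501
               part502)
              part503)
             (good_reach (stepOK6 3)
              part504
              part505))
            (good_reach (stepOK6 2)
             part506
             part507))))))
       (good_reach (stepOK6 1)
        (good_reach (stepOK6 2)
         (good_reach (stepOK6 3)
          (good_reach (stepOK6 2)
           (good_reach (stepOK6 3)
            (good_reach (stepOK6 2)
             part508
             part509)
            part510)
           part511)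
          (good_reach (stepOK6 2)
           part512
           part513))
         (good_reach (stepOK6 3)
          (good_reach (stepOK6 2)
           part514
           part515)
          part516))
        (good_reach (stepOK6 2)
         (good_reach (stepOK6 3)
          (good_reach (stepOK6 2)
           (good_reach (stepOK6 1)
            (good_reach (stepOK6 3)
             (good_reach (stepOK6 2)
              (good_reach (stepOK6 3)
               part517
               part518)
              part519)
             (good_reach (stepOK6 2)
              part520
              part521))
            (good_reach (stepOK6 2)
             (good_reach (stepOK6 3)
              part522
              part523)
             part524))
           part525)
          (good_reach (stepOK6 2)
           (good_reach (stepOK6 1)
            (good_reach (stepOK6 3)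
             part526
             (good_reach (stepOK6 2)
              part527
              part528))
            part529)
           part530))
         (good_reach (stepOK6 3)
          (good_reach (stepOK6 2)
           part531
           (good_reach (stepOK6 3)
            (good_reach (stepOK6 1)
             part532
             part533)
            part534))
          part535))))
      (good_reach (stepOK6 0)
       (good_reach (stepOK6 2)
        (good_reach (stepOK6 2)
         part536
         (good_reach (stepOK6 2)
          (good_reach (stepOK6 3)
           part537
           part538)
          (good_reach (stepOK6 3)
           (good_reach (stepOK6 1)
            (good_reach (stepOK6 3)
             (good_reach (stepOK6 2)
              part539
              part540)
             part541)
            (good_reach (stepOK6 3)
             (good_reach (stepOK6 2)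
              part542
              (good_reach (stepOK6 3)
               part543
               part544))
             (good_reach (stepOK6 2)
              part545
              (good_reach (stepOK6 1)
               part546
               part547))))
           part548)))
        (good_reach (stepOK6 2)
         (good_reach (stepOK6 2)
          (good_reach (stepOK6 1)
           (good_reach (stepOK6 3)
            (good_reach (stepOK6 2)
             part549
             part550)
            part551)
           (good_reach (stepOK6 3)
            (good_reach (stepOK6 3)
             (good_reach (stepOK6 2)
              (good_reach (stepOK6 3)
               part552
               (good_reach (stepOK6 1)
                part553
                part554))
              part555)
             (good_reach (stepOK6 2)
              (good_reach (stepOK6 1)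
               (good_reach (stepOK6 2)
                part556
                part557)
               part558)
              part559))
            part560))
          part561)
         part562))
       (good_reach (stepOK6 0)
        (good_reach (stepOK6 2)
         part563
         part564)
        part565))))

end Vale.Agent.P098.Cert6.TreeNeg
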