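import Vale.Agent.P098.Cert6.Tree.Pos
import Vale.Agent.P098.Cert6.Tree.Neg

/-!
P098, dimension six: the interior inequality of the certificate from the checked trees of both
charts.
-/

namespace Vale.Agent.P098.Cert6

open Check6 Kron

lemma rootsOK6 : rootsOK par6 rootFaces = true := by decide +kernel

/-- The interior inequality at the configurations with a repeated value. -/
theorem hedge6 : ∀ μ a b d : ℝ, μ + 2 * a + b + d = 0 →
    μ ^ 2 + 2 * a ^ 2 + b ^ 2 + d ^ 2 = 1 →
    ∀ va vb vd s q R y : ℝ, 0 ≤ s → 0 ≤ q → s ^ 2 + q ^ 2 ≤ 1 → 0 < R →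
      form (jetsAt (vec6.map Aff.fn) (edgeEig μ a b d) s (s ^ 2 + q ^ 2)) (edgeEig μ a b d) 0
          ![-(2 * va + vb + vd), va, va, vb, vd] s q 1 R y +
        marg6 * ((∑ i, (![-(2 * va + vb + vd), va, va, vb, vd] : Fin 5 → ℝ) i ^ 2) + y ^ 2 + 1) ≤
          0 :=
  hedge_of_good parOK6 rootFaces rootsOK6 fun ε hε => by
    rcases hε with rfl | rfl
    · exact TreePos.good
    · exact TreeNeg.good

end Vale.Agent.P098.Cert6
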