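import Vale.Agent.P098.Cert6.RootState
import Vale.Agent.P098.Check6.IntervalLeaf
import Vale.Agent.P098.Check6.Literal

/-!
P098, dimension six: the parameters of the packed roots of the bisection trees.
-/

namespace Vale.Agent.P098.Cert6

open Check6 Kron

/-- The lane parameters of the certificate. -/
def par6 : RootPar :=
  ⟨163, 67, 13, 88, 2 ^ 124, 2 ^ 33, (2520, 10, 27720, 105)⟩

lemma parOK6 : parOK par6 Interior.tensorDeg = true := by decide +kernel

/-- The bisections along the four axes are admissible. -/
lemma stepOK6 : ∀ a : Fin 4, stepOk (rootCfg par6) a = true := by decide +kernel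

end Vale.Agent.P098.Cert6
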