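import Vale.Agent.P098.Cert6.Root
import Vale.Agent.P098.Cert6.Tree.Pos0
import Vale.Agent.P098.Cert6.Tree.Pos1
import Vale.Agent.P098.Cert6.Tree.Pos2
import Vale.Agent.P098.Cert6.Tree.Pos3
import Vale.Agent.P098.Cert6.Tree.Pos4

/-!
P098, dimension six: the tree at the sign `+1` glued from its parts.
-/

namespace Vale.Agent.P098.Cert6.TreePos

open Check6 Kron

lemma root_eq : eqList (rootSt par6 (1) rootFaces).Ys root.Ys = true := by decide +kernel

/-- The root of the chart is good. -/
theorem good : Good (rootCfg par6) (rootSt par6 (1) rootFaces) :=
  good_of_literal root_eq
    (good_reach (stepOK6 0)
     (good_reach (stepOK6 1)
      (good_reach (stepOK6 2)
       (good_reach (stepOK6 2)
        (good_reach (stepOK6 0)
         (good_reach (stepOK6 1)
          (good_reach (stepOK6 3)
           (good_reach (stepOK6 2)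
            part0
            part1)
           part2)
          (good_reach (stepOK6 3)
           (good_reach (stepOK6 3)
            (good_reach (stepOK6 2)
             (good_reach (stepOK6 3)
              (good_reach (stepOK6 1)
               part3
               part4)
              part5)
             part6)
            part7)
           part8))
         (good_reach (stepOK6 3)
          (good_reach (stepOK6 2)
           (good_reach (stepOK6 3)
            (good_reach (stepOK6 3)
             part9
             part10)
            part11)
           (good_reach (stepOK6 3)
            part12
            part13))
          (good_reach (stepOK6 2)
           part14
           (good_reach (stepOK6 1)
            part15
            part16))))
        (good_reach (stepOK6 2)
         (good_reach (stepOK6 0)
          (good_reach (stepOK6 1)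
           (good_reach (stepOK6 3)
            (good_reach (stepOK6 2)
             part17
             part18)
            part19)
           (good_reach (stepOK6 2)
            (good_reach (stepOK6 3)
             (good_reach (stepOK6 3)
              (good_reach (stepOK6 3)
               part20
               (good_reach (stepOK6 0)
                part21
                (good_reach (stepOK6 1)
                 part22
                 part23)))
              (good_reach (stepOK6 0)
               part24
               (good_reach (stepOK6 1)
                part25
                part26)))
             part27)
            (good_reach (stepOK6 3)
             (good_reach (stepOK6 3)
              (good_reach (stepOK6 3)
               part28
               part29)
              part30)
             part31)))
          (good_reach (stepOK6 3)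
           (good_reach (stepOK6 2)
            (good_reach (stepOK6 3)
             (good_reach (stepOK6 1)
              part32
              part33)
             (good_reach (stepOK6 1)
              part34
              part35))
            (good_reach (stepOK6 3)
             (good_reach (stepOK6 1)
              (good_reach (stepOK6 0)
               part36
               part37)
              (good_reach (stepOK6 3)
               part38
               part39))
             part40))
           (good_reach (stepOK6 1)
            (good_reach (stepOK6 0)
             part41
             (good_reach (stepOK6 3)
              part42
              part43))
            part44)))
         (good_reach (stepOK6 0)
          part45
          (good_reach (stepOK6 3)
           (good_reach (stepOK6 2)
            (good_reach (stepOK6 3)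
             (good_reach (stepOK6 3)
              part46
              part47)
             part48)
            part49)
           part50))))
       (good_reach (stepOK6 2)
        (good_reach (stepOK6 0)
         (good_reach (stepOK6 2)
          (good_reach (stepOK6 3)
           (good_reach (stepOK6 3)
            (good_reach (stepOK6 3)
             part51
             (good_reach (stepOK6 1)
              (good_reach (stepOK6 1)
               part52
               part53)
              part54))
            (good_reach (stepOK6 1)
             (good_reach (stepOK6 3)
              (good_reach (stepOK6 1)
               part55
               part56)
              part57)
             part58))
           part59)
          (good_reach (stepOK6 3)
           part60
           part61))
         (good_reach (stepOK6 2)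
          (good_reach (stepOK6 3)
           (good_reach (stepOK6 3)
            (good_reach (stepOK6 2)
             part62
             part63)
            part64)
           part65)
          (good_reach (stepOK6 3)
           (good_reach (stepOK6 2)
            part66
            (good_reach (stepOK6 3)
             (good_reach (stepOK6 1)
              part67
              part68)
             part69))
           part70)))
        (good_reach (stepOK6 0)
         (good_reach (stepOK6 1)
          part71
          (good_reach (stepOK6 3)
           (good_reach (stepOK6 2)
            part72
            (good_reach (stepOK6 3)
             part73
             part74))
           part75))
         (good_reach (stepOK6 2)
          (good_reach (stepOK6 3)
           (good_reach (stepOK6 2)
            (good_reach (stepOK6 3)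
             (good_reach (stepOK6 1)
              (good_reach (stepOK6 0)
               part76
               (good_reach (stepOK6 3)
                part77
                part78))
              (good_reach (stepOK6 3)
               (good_reach (stepOK6 2)
                part79
                part80)
               part81))
             part82)
            (good_reach (stepOK6 3)
             (good_reach (stepOK6 1)
              (good_reach (stepOK6 0)
               part83
               (good_reach (stepOK6 3)
                part84
                part85))
              (good_reach (stepOK6 3)
               (good_reach (stepOK6 1)
                part86
                part87)
               part88))
             part89))
           part90)
          (good_reach (stepOK6 3)
           (good_reach (stepOK6 3)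
            (good_reach (stepOK6 1)
             part91
             (good_reach (stepOK6 1)
              part92
              part93))
            part94)
           part95)))))
      (good_reach (stepOK6 2)
       (good_reach (stepOK6 2)
        (good_reach (stepOK6 0)
         (good_reach (stepOK6 3)
          (good_reach (stepOK6 1)
           (good_reach (stepOK6 3)
            (good_reach (stepOK6 2)
             (good_reach (stepOK6 0)
              (good_reach (stepOK6 3)
               part96
               part97)
              part98)
             part99)
            (good_reach (stepOK6 2)
             part100
             (good_reach (stepOK6 0)
              part101
              part102)))
           (good_reach (stepOK6 3)
            (good_reach (stepOK6 2)
             (good_reach (stepOK6 3)
              (good_reach (stepOK6 1)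
               part103
               (good_reach (stepOK6 2)
                part104
                part105))
              part106)
             part107)
            (good_reach (stepOK6 2)
             part108
             part109)))
          (good_reach (stepOK6 1)
           (good_reach (stepOK6 0)
            (good_reach (stepOK6 1)
             part110
             (good_reach (stepOK6 2)
              part111
              (good_reach (stepOK6 3)
               part112
               part113)))
            (good_reach (stepOK6 2)
             part114
             (good_reach (stepOK6 3)
              part115
              part116)))
           (good_reach (stepOK6 0)
            (good_reach (stepOK6 1)
             (good_reach (stepOK6 2)
              part117
              (good_reach (stepOK6 3)
               part118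
               part119))
             (good_reach (stepOK6 2)
              part120
              part121))
            (good_reach (stepOK6 1)
             part122
             part123))))
         (good_reach (stepOK6 3)
          (good_reach (stepOK6 2)
           (good_reach (stepOK6 3)
            (good_reach (stepOK6 3)
             part124
             part125)
            part126)
           part127)
          (good_reach (stepOK6 1)
           (good_reach (stepOK6 2)
            part128
            (good_reach (stepOK6 3)
             part129
             part130))
           part131)))
        (good_reach (stepOK6 0)
         (good_reach (stepOK6 2)
          (good_reach (stepOK6 3)
           (good_reach (stepOK6 1)
            (good_reach (stepOK6 2)
             (good_reach (stepOK6 3)
              (good_reach (stepOK6 0)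
               part132
               (good_reach (stepOK6 3)
                part133
                (good_reach (stepOK6 1)
                 part134
                 part135)))
              (good_reach (stepOK6 0)
               part136
               (good_reach (stepOK6 1)
                part137
                part138)))
             (good_reach (stepOK6 3)
              (good_reach (stepOK6 3)
               (good_reach (stepOK6 0)
                part139
                part140)
               part141)
              part142))
            (good_reach (stepOK6 3)
             part143
             part144))
           (good_reach (stepOK6 1)
            (good_reach (stepOK6 2)
             part145
             part146)
            (good_reach (stepOK6 1)
             part147
             part148)))
          (good_reach (stepOK6 1)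
           part149
           (good_reach (stepOK6 3)
            (good_reach (stepOK6 2)
             part150
             part151)
            part152)))
         (good_reach (stepOK6 2)
          (good_reach (stepOK6 3)
           (good_reach (stepOK6 1)
            (good_reach (stepOK6 3)
             (good_reach (stepOK6 2)
              part153
              (good_reach (stepOK6 3)
               part154
               part155))
             (good_reach (stepOK6 2)
              part156
              part157))
            (good_reach (stepOK6 3)
             part158
             part159))
           (good_reach (stepOK6 1)
            (good_reach (stepOK6 3)
             (good_reach (stepOK6 2)
              part160
              part161)
             (good_reach (stepOK6 0)
              (good_reach (stepOK6 2)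
               part162
               part163)
              (good_reach (stepOK6 2)
               part164
               (good_reach (stepOK6 1)
                part165
                part166))))
            (good_reach (stepOK6 1)
             (good_reach (stepOK6 3)
              part167
              (good_reach (stepOK6 2)
               part168
               (good_reach (stepOK6 0)
                part169
                (good_reach (stepOK6 1)
                 part170
                 part171))))
             part172)))
          (good_reach (stepOK6 1)
           (good_reach (stepOK6 3)
            (good_reach (stepOK6 2)
             (good_reach (stepOK6 3)
              (good_reach (stepOK6 3)
               (good_reach (stepOK6 2)
                part173
                (good_reach (stepOK6 3)
                 part174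
                 part175))
               part176)
              part177)
             (good_reach (stepOK6 3)
              part178
              part179))
            (good_reach (stepOK6 2)
             (good_reach (stepOK6 3)
              part180
              part181)
             part182))
           (good_reach (stepOK6 3)
            (good_reach (stepOK6 2)
             (good_reach (stepOK6 3)
              (good_reach (stepOK6 3)
               (good_reach (stepOK6 1)
                (good_reach (stepOK6 2)
                 part183
                 (good_reach (stepOK6 0)
                  part184
                  part185))
                part186)
               part187)
              (good_reach (stepOK6 1)
               part188
               part189))
             (good_reach (stepOK6 3)
              (good_reach (stepOK6 3)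
               (good_reach (stepOK6 1)
                (good_reach (stepOK6 2)
                 (good_reach (stepOK6 0)
                  part190
                  part191)
                 part192)
                part193)
               (good_reach (stepOK6 1)
                part194
                (good_reach (stepOK6 0)
                 part195
                 part196)))
              (good_reach (stepOK6 1)
               part197
               (good_reach (stepOK6 0)
                part198
                part199))))
            (good_reach (stepOK6 1)
             (good_reach (stepOK6 2)
              (good_reach (stepOK6 0)
               part200
               (good_reach (stepOK6 3)
                part201
                (good_reach (stepOK6 1)
                 part202
                 part203)))
              part204)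
             (good_reach (stepOK6 2)
              (good_reach (stepOK6 3)
               part205
               part206)
              part207)))))))
       (good_reach (stepOK6 2)
        (good_reach (stepOK6 2)
         (good_reach (stepOK6 1)
          part208
          part209)
         (good_reach (stepOK6 1)
          part210
          (good_reach (stepOK6 3)
           (good_reach (stepOK6 3)
            (good_reach (stepOK6 2)
             part211
             part212)
            part213)
           part214)))
        (good_reach (stepOK6 1)
         (good_reach (stepOK6 2)
          (good_reach (stepOK6 3)
           (good_reach (stepOK6 3)
            (good_reach (stepOK6 2)
             (good_reach (stepOK6 0)
              part215
              part216)
             (good_reach (stepOK6 0)
              part217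
              (good_reach (stepOK6 3)
               (good_reach (stepOK6 1)
                part218
                part219)
               part220)))
            part221)
           part222)
          (good_reach (stepOK6 3)
           (good_reach (stepOK6 3)
            (good_reach (stepOK6 0)
             (good_reach (stepOK6 1)
              part223
              part224)
             (good_reach (stepOK6 1)
              part225
              (good_reach (stepOK6 3)
               (good_reach (stepOK6 2)
                part226
                part227)
               part228)))
            part229)
           part230))
         (good_reach (stepOK6 2)
          (good_reach (stepOK6 3)
           (good_reach (stepOK6 3)
            (good_reach (stepOK6 2)
             part231
             (good_reach (stepOK6 3)
              (good_reach (stepOK6 1)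
               part232
               part233)
              part234))
            part235)
           part236)
          (good_reach (stepOK6 3)
           (good_reach (stepOK6 3)
            (good_reach (stepOK6 1)
             (good_reach (stepOK6 0)
              part237
              (good_reach (stepOK6 3)
               (good_reach (stepOK6 2)
                part238
                part239)
               part240))
             (good_reach (stepOK6 3)
              (good_reach (stepOK6 2)
               (good_reach (stepOK6 0)
                part241
                part242)
               part243)
              part244))
            part245)
           part246))))))
     (good_reach (stepOK6 0)
      (good_reach (stepOK6 2)
       (good_reach (stepOK6 2)
        (good_reach (stepOK6 3)
         (good_reach (stepOK6 2)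
          part247
          part248)
         part249)
        (good_reach (stepOK6 1)
         (good_reach (stepOK6 2)
          part250
          (good_reach (stepOK6 3)
           part251
           part252))
         (good_reach (stepOK6 2)
          (good_reach (stepOK6 3)
           part253
           part254)
          (good_reach (stepOK6 3)
           (good_reach (stepOK6 1)
            (good_reach (stepOK6 2)
             part255
             (good_reach (stepOK6 3)
              (good_reach (stepOK6 3)
               (good_reach (stepOK6 2)
                part256
                (good_reach (stepOK6 1)
                 part257
                 part258))
               (good_reach (stepOK6 1)
                part259
                (good_reach (stepOK6 0)
                 part260
                 (good_reach (stepOK6 2)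
                  part261
                  part262))))
              (good_reach (stepOK6 1)
               part263
               (good_reach (stepOK6 0)
                part264
                (good_reach (stepOK6 3)
                 part265
                 part266)))))
            (good_reach (stepOK6 2)
             part267
             (good_reach (stepOK6 3)
              (good_reach (stepOK6 1)
               (good_reach (stepOK6 3)
                part268
                part269)
               part270)
              (good_reach (stepOK6 1)
               (good_reach (stepOK6 0)
                part271
                (good_reach (stepOK6 1)
                 part272
                 part273))
               part274))))
           (good_reach (stepOK6 1)
            (good_reach (stepOK6 2)
             part275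
             (good_reach (stepOK6 3)
              (good_reach (stepOK6 1)
               part276
               (good_reach (stepOK6 0)
                part277
                (good_reach (stepOK6 2)
                 part278
                 (good_reach (stepOK6 3)
                  part279
                  part280))))
              part281))
            (good_reach (stepOK6 1)
             part282
             part283))))))
       (good_reach (stepOK6 2)
        (good_reach (stepOK6 1)
         (good_reach (stepOK6 3)
          part284
          part285)
         (good_reach (stepOK6 3)
          (good_reach (stepOK6 2)
           (good_reach (stepOK6 1)
            (good_reach (stepOK6 3)
             (good_reach (stepOK6 2)
              (good_reach (stepOK6 3)
               (good_reach (stepOK6 1)
                part286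
                part287)
               part288)
              part289)
             (good_reach (stepOK6 2)
              (good_reach (stepOK6 3)
               part290
               part291)
              part292))
            (good_reach (stepOK6 2)
             (good_reach (stepOK6 3)
              part293
              part294)
             part295))
           part296)
          (good_reach (stepOK6 2)
           (good_reach (stepOK6 1)
            (good_reach (stepOK6 3)
             (good_reach (stepOK6 2)
              (good_reach (stepOK6 0)
               part297
               (good_reach (stepOK6 1)
                part298
                (good_reach (stepOK6 3)
                 part299
                 part300)))
              part301)
             (good_reach (stepOK6 2)
              (good_reach (stepOK6 0)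
               part302
               (good_reach (stepOK6 1)
                part303
                part304))
              part305))
            part306)
           part307)))
        (good_reach (stepOK6 1)
         (good_reach (stepOK6 3)
          (good_reach (stepOK6 2)
           part308
           part309)
          part310)
         (good_reach (stepOK6 3)
          (good_reach (stepOK6 2)
           part311
           (good_reach (stepOK6 3)
            (good_reach (stepOK6 1)
             part312
             part313)
            part314))
          part315))))
      (good_reach (stepOK6 0)
       (good_reach (stepOK6 2)
        (good_reach (stepOK6 2)
         part316
         (good_reach (stepOK6 3)
          (good_reach (stepOK6 2)
           part317
           part318)
          part319))
        (good_reach (stepOK6 2)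
         (good_reach (stepOK6 3)
          part320
          part321)
         part322))
       part323)))

end Vale.Agent.P098.Cert6.TreePos
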